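import Crest.Agent.X212.Cvb14.Cyl
import Crest.Agent.X212.Wz78.Kat

/-! Row 212, RD-CVB (helper14): the curvature part of the convexity on necks. -/

set_option autoImplicit false
set_option linter.unusedSectionVars false
noncomputable section
open scoped Manifold ContDiff Topology InnerProductSpace
open MeasureTheory Function Filter Finset

namespace Crest.Agent.X212.Cvb14
open An Nd18 Cyf70 Wz78 Rdc90 Sob92
open Neck67 (Lb)

variable {E3 : Type} [NormedAddCommGroup E3] [NormedSpace ℝ E3] [FiniteDimensional ℝ E3]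
  [MeasurableSpace E3] [BorelSpace E3]
  {H3 : Type} [TopologicalSpace H3] {I3 : ModelWithCorners ℝ E3 H3} [I3.Boundaryless]
  {Y : Type} [TopologicalSpace Y] [ChartedSpace H3 Y] [IsManifold I3 ∞ Y] [T2Space Y]
  [MeasurableSpace Y] [BorelSpace Y] [SecondCountableTopology Y] [CompactSpace Y]
  {κ : Type} [Fintype κ] {lam : Type} [Fintype lam]

theorem bdd {α : Type} [Fintype α] {f : α → Y × ℝ → ℝ} (hf : ∀ i, Sm (IC I3) (f i))
    (h : ∀ i x, f i x = f i (x.1, 0)) : ∃ K, 0 ≤ K ∧ ∀ i x, |f i x| ≤ K := by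
  obtain ⟨C, hC⟩ := isCompact_univ.exists_bound_of_continuousOn (f := fun y i => f i (y, 0))
    (continuous_pi fun i => (sm_slice_fst (hf i) 0).continuous).continuousOn
  exact ⟨|C|, abs_nonneg _, fun i x => h i x ▸ (norm_le_pi_norm (fun i => f i (x.1, 0)) i).trans
    ((hC _ trivial).trans (le_abs_self C))⟩

/-- a bound for the coefficients of the background -/
structure Kb (D : YD I3 Y κ lam) (K : ℝ) : Prop where
  nn : 0 ≤ K
  P : ∀ a b x, |D.Z.P a b x| ≤ K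
  c : ∀ a b k x, |D.Z.c a b k x| ≤ K
  dv : ∀ a x, |D.Z.dv a x| ≤ K
  G : ∀ a b k x, |D.Z.Gam a b k x| ≤ K
  o : ∀ a b k l x, |D.B.o a b k l x| ≤ K

variable {D : YD I3 Y κ lam}

theorem exists_kb (hD : D.OK) : ∃ K, Kb D K := by
  obtain ⟨K1, p1, h1⟩ := bdd (f := fun s : Option κ × Option κ => D.Z.P s.1 s.2)
    (fun s => D.Z.P_sm _ _) fun ⟨a, b⟩ _ => by cases a <;> cases b <;> rfl
  obtain ⟨K2, p2, h2⟩ := bdd (f := fun s : Option κ × Option κ × Option κ => D.Z.c s.1 s.2.1 s.2.2)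
    (fun s => D.Z.c_sm _ _ _) fun ⟨a, b, k⟩ _ => by cases a <;> cases b <;> cases k <;> rfl
  obtain ⟨K3, p3, h3⟩ := bdd (f := D.Z.dv) D.Z.dv_sm fun a _ => by cases a <;> rfl
  obtain ⟨K4, p4, h4⟩ := bdd
    (f := fun s : Option κ × Option κ × Option κ => D.Z.Gam s.1 s.2.1 s.2.2)
    (fun s => (lc_gam D.Z).sm _ _ _) fun ⟨a, b, k⟩ _ => by
      rw [Tmp64.gam_cyl]; cases a <;> cases b <;> cases k <;> rfl
  obtain ⟨K5, p5, h5⟩ := bdd
    (f := fun s : (Option κ × Option κ) × Option κ × Option κ => D.B.o s.1.1 s.1.2 s.2.1 s.2.2)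
    (fun s => hD.B.so _ _ _ _) fun _ _ => rfl
  exact ⟨K1 + K2 + K3 + K4 + K5, by positivity, fun a b x => by linarith [h1 (a, b) x],
    fun a b k x => by linarith [h2 (a, b, k) x], fun a x => by linarith [h3 a x],
    fun a b k x => by linarith [h4 (a, b, k) x], fun a b k l x => by linarith [h5 ((a, b), k, l) x]⟩

variable (D) in
/-- the components of the curvature -/
abbrev th (c : Cfg (Y × ℝ) (Option κ) lam 0) : Option κ → Option κ → Y × ℝ → c.m.A :=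
  fun a b x => c.m.Fg D.Z c.W x (a, b)

section pt
variable {c : Cfg (Y × ℝ) (Option κ) lam 0} (hD : D.OK) (H : c.Adm D.B D.G) {x : Y × ℝ}
include hD H

theorem th_sm (a b : Option κ) : Sm (IC I3) (th D c a b) :=
  sm_Fg hD.G H.conn (Std94.sm_pg hD.B H.ok) (a, b)

theorem th_swap (a b : Option κ) (x : Y × ℝ) : th D c a b x = -th D c b a x :=
  Fg_swap hD.G H.conn (b, a)

theorem th_d2 (a b k : Option κ) (x : Y × ℝ) :
    d2 (IC I3) D.Z.e D.Z.c (c.m.adW c.W) (th D c) a b k x = 0 :=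
  Fg_bianchi hD.G H.ok H.conn (Std94.sm_pg hD.B H.ok) a b k x

theorem th_eq (a b : Option κ) (x : Y × ℝ) : th D c a b x =
    (2 : ℝ) • c.m.p2 D.B x (c.m.Fg D.Z c.W x) (a, b)
      - (1 / 2 : ℝ) • ∑ i, ∑ l, D.B.o a b i l x • th D c i l x := by
  have := fun s => a2_Fg (x := x) hD.G H.conn s
  simp only [show D.G.F = D.Z from rfl] at this
  simp only [Md.p2, idx_apply, pg_of_mem (Fg_mem _ _), Base.sd, div_eq_inv_mul, mul_smul,
    ← smul_sum, add_smul, sum_add_distrib, this, mul_one]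
  simp only [Base.st, div_eq_inv_mul, mul_smul, ← smul_sum, Fintype.sum_prod_type, th]
  module

theorem th_proj (a b : Option κ) (y : Y × ℝ) : ∑ k, D.Z.P a k y • th D c k b y = th D c a b y :=
  Fg_proj (G := D.G) (B := D.B) (x := y) hD.G H.conn a b

theorem th_P (k : κ) (y : Y × ℝ) :
    ∑ m, D.F.P k m y.1 • th D c none (some m) y = th D c none (some k) y := by
  have := th_proj hD H (some k) none y
  simp only [Fintype.sum_option, cyl_P, cP, zero_smul, zero_add] at this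
  simp only [th_swap hD H none, smul_neg, sum_neg_distrib, this]

/-- the curvature is bounded by its horizontal part -/
theorem th_le {K w : ℝ} (hK : Kb D K) (h0 : 0 ≤ w)
    (hE : c.m.p2 D.B x (c.m.Fg D.Z c.W x) = c.m.mu D.B x (c.Φ x) (c.Φ x)) (h1 : ‖c.Φ x‖ ≤ 1)
    (h2 : ‖c.Φ x‖ ≤ w) (h3 : ∀ j k, ‖th D c (some j) (some k) x‖ ≤ w) (a b : Option κ) :
    ‖th D c a b x‖ ≤ (8 + Fintype.card κ * (Fintype.card κ * K)) * w := by
  have := hK.nn
  have h4 : ∀ k, ‖th D c none k x‖ ≤ (8 + Fintype.card κ * (Fintype.card κ * K)) * w := fun k => by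
    have o1 : ∀ l, D.B.o none k none l x = 0 := fun l => by
      linarith [hD.B.o23 none k none l x, hD.B.o12 none none k l x]
    have o2 : ∀ l, D.B.o none k l none x = 0 := fun l => by rw [hD.B.o34, o1, neg_zero]
    rw [th_eq hD H, hE]
    simp only [Fintype.sum_option, o1, o2, zero_smul, zero_add, sum_const_zero]
    have a1 := (PiLp.norm_apply_le _ (none, k)).trans (norm_mu hD.B H.ok (x := x) (c.Φ x) (c.Φ x))
    have a2 := norm_sum_le'' fun i => norm_sum_le' (fun l => hK.o none k (some i) (some l) x) (h3 i)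
    refine (norm_sub_le _ _).trans ?_
    rw [norm_smul, norm_smul]
    norm_num
    nlinarith [norm_nonneg (c.Φ x), norm_nonneg (∑ i, ∑ l,
      D.B.o none k (some i) (some l) x • th D c (some i) (some l) x)]
  rcases a with _ | a
  · exact h4 b
  rcases b with _ | b
  · rw [th_swap hD H, norm_neg]; exact h4 _
  · exact (h3 a b).trans (le_mul_of_one_le_left h0 (by
      linarith [show 0 ≤ Fintype.card κ * (Fintype.card κ * K) by positivity]))

theorem dl_th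
    (hE : ∀ᶠ y in 𝓝 x, c.m.p2 D.B y (c.m.Fg D.Z c.W y) = c.m.mu D.B y (c.Φ y) (c.Φ y))
    (k : Option κ) : ∑ m, D.Z.P k m x • dl (IC I3) D.Z.e D.Z.c D.Z.dv (c.m.adW c.W) (th D c) m x
      = (2 : ℝ) • ∑ m, D.Z.P k m x • dl (IC I3) D.Z.e D.Z.c D.Z.dv (c.m.adW c.W)
        (fun a b y => c.m.mu D.B y (c.Φ y) (c.Φ y) (a, b)) m x := by
  have h0 : ∑ m, D.Z.P k m x • dl (IC I3) D.Z.e D.Z.c D.Z.dv (c.m.adW c.W)
      (fun a b y => ∑ i, ∑ l, D.B.o a b i l y • th D c i l y) m x = 0 :=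
    dl_star (lc_gam D.Z) (frm D.Z) (dv_gam hD.G.vol x) (fun a b k l => hD.B.so a b k l)
    (fun x => ⟨hD.B.pr x, hD.B.rk x, fun a b c d => hD.B.o12 a b c d x,
      fun a b c d => hD.B.o23 a b c d x, fun a b c d => hD.B.o34 a b c d x,
      fun a b c d => hD.B.oP a b c d x, hD.B.onm x⟩) (fun a b => th_sm hD H a b x)
    (fun a b => th_swap hD H a b x) (fun a b => th_proj hD H a b x) (fun a b m => th_d2 hD H a b m x) k
  have e1 : ∀ a b, th D c a b =ᶠ[𝓝 x] fun y => (2 : ℝ) • c.m.mu D.B y (c.Φ y) (c.Φ y) (a, b)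
      - (1 / 2 : ℝ) • ∑ i, ∑ l, D.B.o a b i l y • th D c i l y :=
    fun a b => hE.mono fun y hy => (th_eq hD H a b y).trans (by rw [hy])
  have e2 := dl_lin (e := D.Z.e) (c := D.Z.c) (g := D.Z.dv) (A := c.m.adW c.W)
    (fun a b => sa_mu H.ok (Std94.sm_pg hD.B H.ok) hD.B (H.sm x) (H.sm x) (a, b))
    (fun a b => SA.sum univ fun i _ => SA.sum univ fun l _ =>
      SA.smul (hD.B.so a b i l x) (th_sm hD H i l x)) 2 (1 / 2)
  simp only [dl_congr e1, e2, smul_sub, sum_sub_distrib, smul_comm (D.Z.P k _ x) (_ : ℝ),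
    ← smul_sum, h0, smul_zero, sub_zero]

/-- the divergence of the curvature is bounded by the current -/
theorem dl_le {K ε u : ℝ} (hK : Kb D K)
    (hE : ∀ᶠ y in 𝓝 x, c.m.p2 D.B y (c.m.Fg D.Z c.W y) = c.m.mu D.B y (c.Φ y) (c.Φ y))
    (h1 : ‖c.Φ x‖ ≤ ε) (h2 : ‖c.Φ x‖ ≤ u) (h3 : ∀ a, ‖nab (IC I3) D.Z.e c.W a c.Φ x‖ ≤ u)
    (k : Option κ) {n : ℝ} (hn : n = Fintype.card (Option κ)) :
    ‖∑ m, D.Z.P k m x • dl (IC I3) D.Z.e D.Z.c D.Z.dv (c.m.adW c.W) (th D c) m x‖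
      ≤ 2 * (n * (K * ((n * (1 + K) + n * (n * K)) * (8 + 8 * (n * K))))) * (ε * u) := by
  have := hK.nn
  have p0 := (norm_nonneg _).trans h1
  have p1 := (norm_nonneg _).trans h2
  have p2 : 0 ≤ n := hn ▸ Nat.cast_nonneg _
  have b0 : ∀ {v w : c.m.V} {r s : ℝ}, ‖v‖ ≤ r → ‖w‖ ≤ s → ∀ t,
      ‖c.m.mu D.B x v w t‖ ≤ 4 * (r * s) := fun hv hw t =>
    ((PiLp.norm_apply_le _ t).trans (norm_mu hD.B H.ok _ _)).trans (by
      rw [mul_assoc]; gcongr; exact (norm_nonneg _).trans hv)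
  have b1 : 0 ≤ n * K * (ε * u) := by positivity
  have b2 : ∀ j k, ‖nab (IC I3) D.Z.e (c.m.adW c.W) j
      (fun y => c.m.mu D.B y (c.Φ y) (c.Φ y) (j, k)) x‖ ≤ (8 + 8 * (n * K)) * (ε * u) :=
    fun j k => by
      have a2 := norm_sum_le' (fun l => hK.G j j l x) fun l => b0 h1 h2 (l, k)
      have a3 := norm_sum_le' (fun l => hK.G j k l x) fun l => b0 h1 h2 (j, l)
      rw [← hn] at a2 a3
      have a4 := (norm_add_le _ _).trans (add_le_add (norm_add₃_le.trans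
        (add_le_add (add_le_add (b0 (h3 j) h1 (j, k)) (b0 h1 (h3 j) (j, k))) a2)) a3)
      exact ((congrArg norm (mu_nab H.ok H.conn (Std94.sm_pg hD.B H.ok) hD.B j (H.sm x) (H.sm x)
        (j, k))).trans_le a4).trans_eq (by ring)
  have b3 := norm_sum_le' (fun m => hK.P k m x) (norm_dl (fun j l k => hK.c j l k x)
    (fun j => hK.dv j x) (fun j k => (b0 h1 h2 _).trans (by nlinarith [mul_nonneg p0 p1])) b2)
  rw [← hn] at b3
  rw [dl_th hD H hE, norm_smul, Real.norm_ofNat]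
  exact (mul_le_mul_of_nonneg_left b3 two_pos.le).trans_eq (by ring)

end pt

/-- the pointwise inequalities -/
theorem pt_ineq (hD : D.OK) (C₀ : ℝ) : ∃ C, 0 ≤ C ∧ ∀ c : Cfg (Y × ℝ) (Option κ) lam 0,
    c.Adm D.B D.G → ∀ (x : Y × ℝ) (ε : ℝ), ε ≤ 1 →
    (∀ᶠ y in 𝓝 x, c.m.p2 D.B y (c.m.Fg D.Z c.W y) = c.m.mu D.B y (c.Φ y) (c.Φ y)) →
    ‖c.Φ x‖ ≤ ε → ‖c.m.Fg D.Z c.W x‖ ≤ C₀ * ε →
    ‖c.m.Fg D.Z c.W x‖ ^ 2 ≤ C * (∑ j, ∑ k, ‖th D c (some j) (some k) x‖ ^ 2 + ‖c.Φ x‖ ^ 2) ∧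
    2 * ∑ k, ‖∑ m, D.F.P k m x.1 •
      Dl D.F (c.m.adW c.W) (fun j k => th D c (some j) (some k)) m x‖ ^ 2
      - C * ε * (∑ j, ∑ k, ‖th D c (some j) (some k) x‖ ^ 2 + ‖c.Φ x‖ ^ 2
        + ∑ a, ‖nab (IC I3) D.Z.e c.W a c.Φ x‖ ^ 2) ≤ h2 D.F (c.m.adW c.W) (th D c) x := by
  obtain ⟨K, hK⟩ := exists_kb hD
  have := hK.nn
  obtain ⟨n, hn⟩ : ∃ n : ℝ, n = Fintype.card (Option κ) := ⟨_, rfl⟩
  obtain ⟨N, hN⟩ : ∃ n : ℝ, n = Fintype.card κ := ⟨_, rfl⟩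
  have p2 : 0 ≤ n := hn ▸ Nat.cast_nonneg _
  have p3 : 0 ≤ N := hN ▸ Nat.cast_nonneg _
  obtain ⟨C₁, c1⟩ : ∃ C, C = 8 + N * (N * K) := ⟨_, rfl⟩
  obtain ⟨C₂, c2⟩ : ∃ C, C = 2 * (n * (K * ((n * (1 + K) + n * (n * K)) * (8 + 8 * (n * K))))) :=
    ⟨_, rfl⟩
  refine ⟨n * n * C₁ ^ 2 + 2 * N * C₂ ^ 2 + 8 * N * N * |C₀| * C₁ ^ 2, by positivity,
    fun c H x ε h1 hE h2 h3 => ?_⟩
  have p0 := (norm_nonneg _).trans h2
  have b1 : ∀ j k, _ ≤ ∑ j, ∑ k, ‖th D c (some j) (some k) x‖ ^ 2 := fun j k =>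
    (single_le_sum (f := fun k => ‖th D c (some j) (some k) x‖ ^ 2) (fun _ _ => sq_nonneg _)
      (mem_univ k)).trans (single_le_sum (f := fun j => ∑ k, ‖th D c (some j) (some k) x‖ ^ 2)
        (fun _ _ => sum_nonneg fun _ _ => sq_nonneg _) (mem_univ j))
  have b2 := fun a => single_le_sum (f := fun a => ‖nab (IC I3) D.Z.e c.W a c.Φ x‖ ^ 2)
    (fun _ _ => sq_nonneg _) (mem_univ a)
  have hb : 0 ≤ ∑ j, ∑ k, ‖th D c (some j) (some k) x‖ ^ 2 :=
    sum_nonneg fun _ _ => sum_nonneg fun _ _ => sq_nonneg _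
  have hd := (sq_nonneg _).trans (b2 none)
  generalize ∑ j, ∑ k, ‖th D c (some j) (some k) x‖ ^ 2 = b at b1 hb ⊢
  generalize ∑ a, ‖nab (IC I3) D.Z.e c.W a c.Φ x‖ ^ 2 = d at b2 hd ⊢
  have q0 := sq_nonneg ‖c.Φ x‖
  have w2 := Real.sq_sqrt (add_nonneg hb q0)
  have u2 := Real.sq_sqrt (add_nonneg q0 hd)
  have a1 := th_le hD H hK (Real.sqrt_nonneg (b + ‖c.Φ x‖ ^ 2)) hE.self_of_nhds (h2.trans h1)
    (Real.le_sqrt_of_sq_le (le_add_of_nonneg_left hb)) fun j k =>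
      Real.le_sqrt_of_sq_le (le_add_of_le_of_nonneg (b1 j k) q0)
  have a2 := fun k => dl_le hD H hK hE h2 (Real.le_sqrt_of_sq_le (le_add_of_nonneg_right hd))
    (fun a => Real.le_sqrt_of_sq_le (le_add_of_nonneg_of_le q0 (b2 a))) (some k) hn
  generalize √(b + ‖c.Φ x‖ ^ 2) = w at w2 a1
  generalize √(‖c.Φ x‖ ^ 2 + d) = u at u2 a2
  rw [← hN, ← c1] at a1
  rw [← c2] at a2
  have a3 := h2_ge (th_sm hD H) (th_P hD H) a2 (b := |C₀| * ε) (q := 2 * (C₁ * w * (C₁ * w)))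
    (fun j k => ((PiLp.norm_apply_le _ _).trans h3).trans
      (mul_le_mul_of_nonneg_right (le_abs_self _) p0))
    fun j k => (congrArg norm (curv_adW_g (G := D.G) (x := x) hD.B hD.G H.ok H.conn none (some j)
      (Fg_mem D.Z (none, some k)))).trans_le ((norm_adc _ _).trans (mul_le_mul_of_nonneg_left
        (mul_le_mul (a1 none (some j)) (a1 none (some k)) (norm_nonneg _)
          ((norm_nonneg _).trans (a1 none none))) two_pos.le))
  constructor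
  · rw [PiLp.norm_sq_eq_of_L2, ← w2]
    refine (sum_le_card_nsmul _ _ _ fun s _ =>
      pow_le_pow_left₀ (norm_nonneg _) (a1 s.1 s.2) 2).trans ?_
    rw [card_univ, Fintype.card_prod, nsmul_eq_mul, Nat.cast_mul, ← hn]
    have : 0 ≤ (2 * N * C₂ ^ 2 + 8 * N * N * |C₀| * C₁ ^ 2) * w ^ 2 := by positivity
    linarith
  · refine le_trans (sub_le_sub_left ?_ _) a3
    generalize ‖c.Φ x‖ ^ 2 = p at *
    have r1 : 0 ≤ n * n * C₁ ^ 2 * ε * (b + p + d) := by positivity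
    have r2 : 2 * N * C₂ ^ 2 * ε * (ε * u ^ 2) ≤ 2 * N * C₂ ^ 2 * ε * (b + p + d) :=
      mul_le_mul_of_nonneg_left ((mul_le_of_le_one_left (sq_nonneg u) h1).trans (by linarith))
        (by positivity)
    have r3 : 8 * N * N * |C₀| * C₁ ^ 2 * ε * w ^ 2 ≤ 8 * N * N * |C₀| * C₁ ^ 2 * ε * (b + p + d) :=
      mul_le_mul_of_nonneg_left (by linarith) (by positivity)
    rw [← hN]
    linarith

/-- the integrated inequalities -/
theorem int_ineq (hD : D.OK) (C₀ : ℝ) : ∃ C, 0 ≤ C ∧ ∀ c : Cfg (Y × ℝ) (Option κ) lam 0,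
    c.Adm D.B D.G → ∀ G : ℝ → ℝ,
    (G = fun t => ∫ y, ∑ j, ∑ k, ‖th D c (some j) (some k) (y, t)‖ ^ 2 ∂D.F.μ) →
    Differentiable ℝ G ∧ Differentiable ℝ (deriv G) ∧ ∀ (J : Set ℝ) (ε : ℝ), IsOpen J → ε ≤ 1 →
      Eqs D c (Set.univ ×ˢ J) → ∀ t ∈ J,
      (∀ y, ‖c.Φ (y, t)‖ ≤ ε ∧ ‖c.m.Fg D.Z c.W (y, t)‖ ≤ C₀ * ε) →
        GF D c t ≤ C * (G t + GP D c t) ∧ 2 * ∫ y, ∑ k, ‖∑ m, D.F.P k m y •
          Dl D.F (c.m.adW c.W) (fun j k => th D c (some j) (some k)) m (y, t)‖ ^ 2 ∂D.F.μ -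
          C * ε * (G t + GP D c t + NP D c t) ≤ deriv (deriv G) t := by
  obtain ⟨C, hC, h⟩ := pt_ineq hD C₀
  refine ⟨C, hC, fun c H G hG => ?_⟩
  have hA : ∀ a, Sm (IC I3) (c.m.adW c.W a) := (con_adW H.conn).sm
  obtain ⟨d1, d2, d3⟩ := der2 hA (th_sm hD H) (adW_skw H.conn) (th_swap hD H) (th_d2 hD H) hG
  refine ⟨d1, d2, fun J ε hJ h1 hE t ht hb => ?_⟩
  have k := fun y => h _ H (y, t) ε h1 (mem_of_superset ((isOpen_univ.prod hJ).mem_nhds
    ⟨trivial, ht⟩) fun z hz => (hE z hz).2) (hb y).1 (hb y).2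
  have sq : ∀ {V : Type} [NormedAddCommGroup V] [InnerProductSpace ℝ V] {f : Y × ℝ → V},
      Sm (IC I3) f → Sm (IC I3) fun x => ‖f x‖ ^ 2 := fun hf x => by
    simp only [← real_inner_self_eq_norm_sq]; exact SA.inner (hf x) (hf x)
  have i1 := int_sl D.F (fun x => SA.sum univ fun j _ => SA.sum univ fun k _ =>
    sq (th_sm hD H (some j) (some k)) x) t
  have i2 := int_sl D.F (sq H.sm) t
  have i3 := int_sl D.F (fun x => SA.sum univ fun a _ =>
    sq (sm_nab (F := D.Z) H.conn.cc.sm a H.sm) x) t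
  have i4 := int_sl D.F (fun x => SA.sum univ fun k _ => sq (fun x => SA.sum univ fun m _ =>
    SA.smul (sm_fst (D.F.P_sm k m) x) (sm_Dl (F := D.F) hA (th_sm hD H) m x)) x) t
  have i5 := i1.fun_add i2
  have i6 := i5.fun_add i3
  rw [d3, hG]
  simp only [GF, GP, NP]
  rw [← integral_add i1 i2, ← integral_add i5 i3, ← integral_const_mul, ← integral_const_mul,
    ← integral_const_mul, ← integral_sub (i4.const_mul _) (i6.const_mul _)]
  exact ⟨integral_mono_of_nonneg (.of_forall fun y => sq_nonneg _) (i5.const_mul _)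
    (.of_forall fun y => (k y).1), integral_mono ((i4.const_mul _).sub (i6.const_mul _))
      (int_sl D.F (sm_h2 hA (th_sm hD H)) t) fun y => (k y).2⟩

variable (I3 Y κ lam) in
/-- **LEAF CVB** -/
theorem cvb (bas : BasStmt I3 Y κ lam) : CvbStmt I3 Y κ lam := by
  intro D β hβ
  have hD := hβ.ok
  obtain ⟨-, -, b3, -, b5, -⟩ := bas D β hD hβ.adm
  obtain ⟨C₀, h0⟩ := b5 hβ.flat 0
  obtain ⟨C, hC, h⟩ := int_ineq hD C₀
  refine ⟨C, hC, fun α Φ S GB hG => ?_⟩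
  obtain ⟨H, -, hF⟩ := b3 α Φ S
  have hB : ∀ t, By D β (sl β α t) = fun j k y => th D (zc β α Φ) (some j) (some k) (y, t) :=
    fun t => funext₃ fun j k y => (hF hβ.flat y t j k).symm
  simp only [hB] at hG
  obtain ⟨d1, d2, d3⟩ := h _ H GB hG
  refine ⟨d1, d2, fun J ε hJ h1 hE hα hΦ t ht => ?_⟩
  have e : ∀ k y, Ly D β (sl β α t) k y = ∑ m, D.F.P k m y • Dl D.F
      ((zc β α Φ).m.adW (zc β α Φ).W) (fun j k => th D (zc β α Φ) (some j) (some k)) m (y, t) :=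
    fun k y => sum_congr rfl fun m _ => congrArg _ (by
      rw [hB]
      exact congrArg (-· - _) (sum_congr rfl fun j _ => congrArg (· + _ + _)
        (D_some D.F.toPre (th_sm hD H (some j) (some m)) j (y, t)).symm))
  simp only [e]
  exact d3 J ε hJ h1 hE t ht fun y => ⟨(congrArg norm (add_eq_right.2 (hβ.zr y))).trans_le
    (hΦ.le (x := (y, t)) ⟨trivial, ht⟩), (h0 α Φ S _ ε (isOpen_univ.prod hJ) h1 hα).le ⟨trivial, ht⟩⟩

end Crest.Agent.X212.Cvb14
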