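import Crest.Agent.X212.Rdc90.Defs

/-! Row 212, RD-CVB (helper14): the second derivative of the slice energy of a closed two-form. -/

set_option autoImplicit false
set_option linter.unusedSectionVars false
noncomputable section
open scoped Manifold ContDiff Topology InnerProductSpace
open MeasureTheory Function Filter Finset

namespace Crest.Agent.X212.Cvb14
open An Cyf70 Wz78 Rdc90 Sob92

section gen
variable {E H : Type*} [NormedAddCommGroup E] [NormedSpace ℝ E] [TopologicalSpace H]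
  {I : ModelWithCorners ℝ E H} {M : Type*} [TopologicalSpace M] [ChartedSpace H M]
  {V : Type*} [NormedAddCommGroup V] [InnerProductSpace ℝ V]
  {ι : Type} [Fintype ι] [IsManifold I 1 M] {e : ι → (x : M) → TangentSpace I x}
  {c : ι → ι → ι → M → ℝ} {g : ι → M → ℝ} {A : ι → M → V →L[ℝ] V} {x : M}

theorem dl_congr {β β' : ι → ι → M → V} (h : ∀ j k, β j k =ᶠ[𝓝 x] β' j k) (k : ι) :
    dl I e c g A β k x = dl I e c g A β' k x := by
  simp only [dl, fun j => nab_congr (e := e) (A := A) j (h j k), fun j k => (h j k).self_of_nhds]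

theorem dl_lin {β β' : ι → ι → M → V} (h : ∀ j k, SA I (β j k) x) (h' : ∀ j k, SA I (β' j k) x)
    (r s : ℝ) (k : ι) : dl I e c g A (fun a b y => r • β a b y - s • β' a b y) k x
      = r • dl I e c g A β k x - s • dl I e c g A β' k x := by
  have h1 : ∀ j, nab I e A j (fun y => r • β j k y - s • β' j k y) x
      = r • nab I e A j (β j k) x - s • nab I e A j (β' j k) x := fun j => by
    rw [nab_sub j (SA.smul contMDiffAt_const (h j k)) (SA.smul contMDiffAt_const (h' j k)),
      nab_csmul j r (h j k), nab_csmul j s (h' j k)]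
  simp only [dl, h1, smul_sub, smul_comm _ r, smul_comm _ s, sum_add_distrib, sum_sub_distrib,
    ← smul_sum]
  module

theorem norm_sum_le' {α : Type} [Fintype α] {f : α → ℝ} {v : α → V} {K m : ℝ}
    (hf : ∀ i, |f i| ≤ K) (hv : ∀ i, ‖v i‖ ≤ m) :
    ‖∑ i, f i • v i‖ ≤ Fintype.card α * (K * m) :=
  (norm_sum_le _ _).trans <| (sum_le_card_nsmul _ _ _ fun i _ => by
    rw [norm_smul]
    exact mul_le_mul (hf i) (hv i) (norm_nonneg _) ((abs_nonneg _).trans (hf i))).trans_eq
      (by simp)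

theorem norm_sum_le'' {α : Type} [Fintype α] {v : α → V} {m : ℝ} (hv : ∀ i, ‖v i‖ ≤ m) :
    ‖∑ i, v i‖ ≤ Fintype.card α * m :=
  (norm_sum_le _ _).trans <| (sum_le_card_nsmul _ _ _ fun i _ => hv i).trans_eq (by simp)

theorem norm_dl {β : ι → ι → M → V} {K m : ℝ} (hc : ∀ j l k, |c j l k x| ≤ K)
    (hg : ∀ j, |g j x| ≤ K) (h0 : ∀ j k, ‖β j k x‖ ≤ m) (h1 : ∀ j k, ‖nab I e A j (β j k) x‖ ≤ m)
    (k : ι) : ‖dl I e c g A β k x‖
      ≤ Fintype.card ι * (m + K * m) + Fintype.card ι * (Fintype.card ι * (K * m)) := by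
  refine (norm_sub_le _ _).trans (add_le_add ?_ ?_)
  · rw [norm_neg]
    refine norm_sum_le'' fun j => (norm_add_le _ _).trans (add_le_add (h1 j k) ?_)
    rw [norm_smul]
    exact mul_le_mul (hg j) (h0 j k) (norm_nonneg _) ((abs_nonneg _).trans (hg j))
  · rw [norm_smul]
    exact (mul_le_of_le_one_left (norm_nonneg _) (by norm_num)).trans
      (norm_sum_le'' fun j => norm_sum_le' (fun l => hc j l k) (h0 j))

end gen

variable {E : Type} [NormedAddCommGroup E] [NormedSpace ℝ E] [FiniteDimensional ℝ E]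
  [MeasurableSpace E] [BorelSpace E]
  {HM : Type} [TopologicalSpace HM] {I : ModelWithCorners ℝ E HM} [I.Boundaryless]
  {Y : Type} [TopologicalSpace Y] [ChartedSpace HM Y] [IsManifold I ∞ Y] [T2Space Y]
  [MeasurableSpace Y] [BorelSpace Y] [SecondCountableTopology Y] [CompactSpace Y]
  {κ : Type} [Fintype κ] {V : Type} [NormedAddCommGroup V] [InnerProductSpace ℝ V]
  (F : Fr I Y κ)

theorem int_sl {g : Y × ℝ → ℝ} (hg : Sm (IC I) g) (t : ℝ) : Integrable (fun y => g (y, t)) F.μ :=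
  integ (sm_slice_fst hg t) (.of_compactSpace _)

/-- differentiation of slice integrals -/
theorem der_sl {g : Y × ℝ → ℝ} (hg : Sm (IC I) g) (t : ℝ) :
    HasDerivAt (fun s => ∫ y, g (y, s) ∂F.μ) (∫ y, (cyl F).D none g (y, t) ∂F.μ) t := by
  have h1 := (cyl F).sm_D hg none
  obtain ⟨C, hC⟩ := (isCompact_univ.prod (isCompact_closedBall t 1)).exists_bound_of_continuousOn
    h1.continuous.continuousOn
  exact (hasDerivAt_integral_of_dominated_loc_of_deriv_le (s := Metric.closedBall t 1)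
    (F' := fun s y => (cyl F).D none g (y, s)) (bound := fun _ => C)
    (Metric.closedBall_mem_nhds t one_pos)
    (.of_forall fun s => (int_sl F hg s).1) (int_sl F hg t)
    (int_sl F h1 t).1 (.of_forall fun y s hs => hC _ ⟨trivial, hs⟩)
    (continuous_const.integrable_of_hasCompactSupport (.of_compactSpace _))
    (.of_forall fun y s _ => hasDerivAt_slice F.toPre hg y s)).2

/-- the horizontal frame -/
abbrev hE : κ → (x : Y × ℝ) → TangentSpace (IC I) x := fun k => (cyl F).e (some k)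
/-- its brackets -/
abbrev hc : κ → κ → κ → Y × ℝ → ℝ := fun j k l x => F.c j k l x.1
/-- its divergences -/
abbrev hg : κ → Y × ℝ → ℝ := fun k x => F.dv k x.1

theorem cyl_c : (cyl F).c = cc F.c := rfl
theorem cyl_P : (cyl F).P = cP F.P := rfl
theorem cyl_dv : (cyl F).dv = cd F.dv := rfl

theorem hfrm : Frm (IC I) (hE F) (fun j k x => F.P j k x.1) (hc F) where
  se a := (frm (cyl F)).se (some a)
  sP a b := (frm (cyl F)).sP (some a) (some b)
  sc a b k := (frm (cyl F)).sc (some a) (some b) (some k)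
  pr x := frPr F x.1
  proj a x := by simpa [Fintype.sum_option, cyl_P, cP] using (frm (cyl F)).proj (some a) x
  br a b f x hf := by
    simpa [Fintype.sum_option, cyl_c, cc] using (frm (cyl F)).br (some a) (some b) f x hf

theorem int_dvg {f : κ → Y × ℝ → ℝ} (hf : ∀ k, Sm (IC I) (f k)) (t : ℝ) :
    ∫ y, dvg (IC I) (hE F) (hg F) f (y, t) ∂F.μ = 0 := by
  rw [← integral_dvg (F := F) (fun k => sm_slice_fst (hf k) t) fun k => .of_compactSpace _]
  exact integral_congr_ae (.of_forall fun y => sum_congr rfl fun k _ =>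
    congrArg (· + _) (D_some F.toPre (hf k) k (y, t)))

variable (A : Option κ → Y × ℝ → V →L[ℝ] V)

/-- the horizontal exterior derivative -/
abbrev Ed := ed (IC I) (hE F) (hc F) fun k => A (some k)
/-- its adjoint -/
abbrev Dl := dl (IC I) (hE F) (hc F) (hg F) fun k => A (some k)
/-- the covariant time derivative -/
abbrev Nt := nab (IC I) (cyl F).e A none

theorem nab_h (k : κ) : nab (IC I) (hE F) (fun k => A (some k)) k
    = nab (IC I) (cyl F).e A (some k) := rfl

variable {F A} {x : Y × ℝ}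

theorem Nt_smul {f : Y → ℝ} (hf : Sm I f) {u : Y × ℝ → V} (hu : SA (IC I) u x) :
    Nt F A (fun z => f z.1 • u z) x = f x.1 • Nt F A u x := by
  rw [Nt, nab_smul none (sm_fst hf x) hu,
    show dv (IC I) ((cyl F).e none) (fun z => f z.1) x = 0 from congrFun (D_none_fst F.toPre hf) x,
    zero_smul, zero_add]

theorem Nt_Ed (hA : ∀ a, Sm (IC I) (A a)) {α : κ → Y × ℝ → V} (h : ∀ k, Sm (IC I) (α k))
    (j k : κ) : Nt F A (Ed F A α j k) x = Ed F A (fun k => Nt F A (α k)) j k x
      + (curv (IC I) (cyl F).e (cyl F).c A none (some j) x (α k x)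
        - curv (IC I) (cyl F).e (cyl F).c A none (some k) x (α j x)) := by
  have hn := fun j k => (hfrm F).sN (A := fun k => A (some k)) (fun a => hA _ x) j (h k x)
  have h1 := fun j k => (frm (cyl F)).nab_comm (fun a => hA a x) none (some j) (h k x)
  have h2 : ∀ j a, (cyl F).c none (some j) a x = 0 := fun _ _ => rfl
  simp only [h2, zero_smul, sum_const_zero, sub_zero] at h1
  have h3 := fun l => (hfrm F).sc j k l x |>.smul (h l x)
  rw [← h1, ← h1]
  unfold Ed ed
  rw [Nt, nab_sub none ((hn j k).sub (hn k j)) (SA.sum _ fun l _ => h3 l),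
    nab_sub none (hn j k) (hn k j), nab_sum none _ h3,
    sum_congr rfl fun l _ => Nt_smul (F.c_sm j k l) (h l x)]
  simp only [nab_h]
  abel

variable {θ : Option κ → Option κ → Y × ℝ → V}

theorem dl_cyl (k : κ) : dl (IC I) (cyl F).e (cyl F).c (cyl F).dv A θ (some k) x
    = Dl F A (fun j k => θ (some j) (some k)) k x - Nt F A (θ none (some k)) x := by
  simp only [dl, Fintype.sum_option, cyl_c, cyl_dv, cc, cd, zero_smul, add_zero, zero_add,
    sum_const_zero, nab_h]
  abel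

theorem Nt_B (h1 : ∀ a b y, θ a b y = -θ b a y)
    (h2 : ∀ a b m, d2 (IC I) (cyl F).e (cyl F).c A θ a b m x = 0) (j k : κ) :
    Nt F A (θ (some j) (some k)) x = Ed F A (fun k => θ none (some k)) j k x := by
  have h := h2 none (some j) (some k)
  rw [d2, show θ (some k) none = fun y => -θ none (some k) y from funext (h1 _ _), nab_neg] at h
  simp only [Fintype.sum_option, cyl_c, cc, zero_smul, zero_add, sum_const_zero, sub_zero,
    h1 (some _) none, smul_neg, sum_neg_distrib] at h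
  rw [← sub_eq_zero, ← h]
  simp only [ed, nab_h]
  abel

variable (F A θ) in
/-- the integrand of the second derivative -/
def h2 (x : Y × ℝ) : ℝ := 2 * ∑ j, ∑ k, ‖Ed F A (fun k => θ none (some k)) j k x‖ ^ 2
  + 4 * ∑ k, ⟪Dl F A (fun j k => θ (some j) (some k)) k x, Nt F A (θ none (some k)) x⟫_ℝ
  + 2 * ∑ j, ∑ k, ⟪θ (some j) (some k) x,
    curv (IC I) (cyl F).e (cyl F).c A none (some j) x (θ none (some k) x)
      - curv (IC I) (cyl F).e (cyl F).c A none (some k) x (θ none (some j) x)⟫_ℝ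

variable (hA : ∀ a, Sm (IC I) (A a)) (hθ : ∀ a b, Sm (IC I) (θ a b))
include hA hθ

theorem sm_Dl (k : κ) : Sm (IC I) (Dl F A (fun j k => θ (some j) (some k)) k) := fun x =>
  sa_dl (hfrm F) (fun _ => hA _ x) (fun a => sm_fst (F.dv_sm a) x) (fun _ _ => hθ _ _ x) k

theorem sm_h2 : Sm (IC I) (h2 F A θ) := fun x => by
  have h1 := fun j k => sa_ed (A := fun k => A (some k)) (hfrm F) (fun _ => hA _ x)
    (fun k => hθ none (some k) x) j k
  have h3 := fun a b => (frm (cyl F)).sCurv (fun a => hA a x) a b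
  unfold h2
  simp only [← real_inner_self_eq_norm_sq]
  exact ((SA.mul contMDiffAt_const (SA.sum _ fun j _ => SA.sum _ fun k _ =>
    (h1 j k).inner (h1 j k))).add (SA.mul contMDiffAt_const (SA.sum _ fun k _ =>
      SA.inner (sm_Dl hA hθ k x) (sm_nab hA none (hθ _ _) x)))).add
    (SA.mul contMDiffAt_const (SA.sum _ fun j _ => SA.sum _ fun k _ => SA.inner (hθ _ _ x)
      ((SA.app (h3 _ _) (hθ _ _ x)).sub (SA.app (h3 _ _) (hθ _ _ x)))))

omit hA in
theorem h2_ge (hP : ∀ k y, ∑ m, F.P k m y.1 • θ none (some m) y = θ none (some k) y) {r b q : ℝ}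
    (hr : ∀ k, ‖∑ m, (cyl F).P (some k) m x • dl (IC I) (cyl F).e (cyl F).c (cyl F).dv A θ m x‖ ≤ r)
    (hb : ∀ j k, ‖θ (some j) (some k) x‖ ≤ b)
    (hq : ∀ j k, ‖curv (IC I) (cyl F).e (cyl F).c A none (some j) x (θ none (some k) x)‖ ≤ q) :
    2 * ∑ k, ‖∑ m, F.P k m x.1 • Dl F A (fun j k => θ (some j) (some k)) m x‖ ^ 2
      - (2 * (Fintype.card κ * r ^ 2) + 2 * (Fintype.card κ * (Fintype.card κ * (b * (q + q)))))
      ≤ h2 F A θ x := by
  set d := fun m => Dl F A (fun j k => θ (some j) (some k)) m x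
  set L := fun k => ∑ m, F.P k m x.1 • d m
  set J := fun k => ∑ m, (cyl F).P (some k) m x • dl (IC I) (cyl F).e (cyl F).c (cyl F).dv A θ m x
  have e1 : ∀ k, Nt F A (θ none (some k)) x = ∑ m, F.P k m x.1 • Nt F A (θ none (some m)) x :=
    fun k => by
      rw [← funext (hP k), Nt, nab_sum none _ fun m => SA.smul (sm_fst (F.P_sm k m) x) (hθ _ _ x)]
      exact sum_congr rfl fun m _ => Nt_smul (F.P_sm k m) (hθ _ _ x)
  have e2 : ∀ k, Nt F A (θ none (some k)) x = L k - J k := fun k => by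
    simp only [L, J, d, Fintype.sum_option, cyl_P, cP, zero_smul, zero_add, dl_cyl, smul_sub,
      sum_sub_distrib, sub_sub_cancel, ← e1]
  have e3 : ∑ k, ⟪d k, Nt F A (θ none (some k)) x⟫_ℝ = ∑ k, ⟪L k, L k - J k⟫_ℝ := by
    rw [sum_congr rfl fun k _ => congrArg (⟪d k, ·⟫_ℝ) (e1 k)]
    simp only [← e2, L, inner_sum, sum_inner, real_inner_smul_left, real_inner_smul_right]
    exact sum_comm.trans (sum_congr rfl fun k _ => sum_congr rfl fun m _ => by rw [F.P_symm])
  have e4 : ∑ k, (2 * ‖L k‖ ^ 2 - 2 * r ^ 2) ≤ ∑ k, 4 * ⟪L k, L k - J k⟫_ℝ :=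
    sum_le_sum fun k _ => by
      rw [inner_sub_right, real_inner_self_eq_norm_sq]
      nlinarith [real_inner_le_norm (L k) (J k), sq_nonneg (‖L k‖ - ‖J k‖),
        pow_le_pow_left₀ (norm_nonneg _) (hr k) 2]
  have e5 := norm_sum_le'' fun j => norm_sum_le'' fun k => (norm_inner_le_norm (𝕜 := ℝ) _ _).trans
    (mul_le_mul (hb j k) ((norm_sub_le _ _).trans (add_le_add (hq j k) (hq k j))) (norm_nonneg _)
      ((norm_nonneg _).trans (hb j k)))
  simp only [sum_sub_distrib, ← mul_sum, sum_const, card_univ, nsmul_eq_mul] at e4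
  have e6 : 0 ≤ ∑ j, ∑ k, ‖Ed F A (fun k => θ none (some k)) j k x‖ ^ 2 := by positivity
  rw [h2, e3]
  linarith [neg_le_of_abs_le e5]

/-- **second derivative of the slice energy** -/
theorem der2 (hs : ∀ a x, Skew (A a x)) (h1 : ∀ a b y, θ a b y = -θ b a y)
    (hd : ∀ a b m x, d2 (IC I) (cyl F).e (cyl F).c A θ a b m x = 0) {G : ℝ → ℝ}
    (hG : G = fun t => ∫ y, ∑ j, ∑ k, ‖θ (some j) (some k) (y, t)‖ ^ 2 ∂F.μ) :
    Differentiable ℝ G ∧ Differentiable ℝ (deriv G) ∧
      ∀ t, deriv (deriv G) t = ∫ y, h2 F A θ (y, t) ∂F.μ := by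
  have hE : ∀ j k, Sm (IC I) (Ed F A (fun k => θ none (some k)) j k) := fun j k x =>
    sa_ed (hfrm F) (fun _ => hA _ x) (fun k => hθ none (some k) x) j k
  have hN : ∀ k, Sm (IC I) (Nt F A (θ none (some k))) := fun k => sm_nab hA none (hθ _ _)
  set g0 : Y × ℝ → ℝ := fun x => ∑ j, ∑ k, ⟪θ (some j) (some k) x, θ (some j) (some k) x⟫_ℝ
  set g1 : Y × ℝ → ℝ := fun x => 2 * ∑ j, ∑ k,
    ⟪θ (some j) (some k) x, Ed F A (fun k => θ none (some k)) j k x⟫_ℝ
  set f : κ → Y × ℝ → ℝ := fun j y => ∑ k, ⟪θ (some j) (some k) y, Nt F A (θ none (some k)) y⟫_ℝ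
  have key : ∀ {u v : κ → κ → Y × ℝ → V}, (∀ j k, Sm (IC I) (u j k)) → (∀ j k, Sm (IC I) (v j k)) →
      Sm (IC I) (fun x => ∑ j, ∑ k, ⟪u j k x, v j k x⟫_ℝ) ∧ ∀ x,
      (cyl F).D none (fun x => ∑ j, ∑ k, ⟪u j k x, v j k x⟫_ℝ) x = ∑ j, ∑ k,
        (⟪Nt F A (u j k) x, v j k x⟫_ℝ + ⟪u j k x, Nt F A (v j k) x⟫_ℝ) := fun hu hv =>
    ⟨fun x => SA.sum _ fun j _ => SA.sum _ fun k _ => SA.inner (hu j k x) (hv j k x), fun x => by
      rw [Pre.D_def, dv_sum' _ fun j => SA.sum _ fun k _ => SA.inner (hu j k x) (hv j k x)]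
      refine sum_congr rfl fun j _ => ?_
      rw [dv_sum' _ fun k => SA.inner (hu j k x) (hv j k x)]
      exact sum_congr rfl fun k _ => dv_inner none (hs _ x) (hu j k x) (hv j k x)⟩
  obtain ⟨s0, d0⟩ := key (fun j k => hθ (some j) (some k)) fun j k => hθ (some j) (some k)
  obtain ⟨s1, d1⟩ := key (fun j k => hθ (some j) (some k)) hE
  have s1' : Sm (IC I) g1 := fun x => SA.mul contMDiffAt_const (s1 x)
  have sf : ∀ j, Sm (IC I) (f j) := fun j x => SA.sum _ fun k _ => SA.inner (hθ _ _ x) (hN k x)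
  have e0 : (cyl F).D none g0 = g1 := funext fun x => by
    rw [d0]
    simp only [g1, Nt_B h1 (fun a b m => hd a b m x), real_inner_comm (θ _ _ x), ← two_mul, mul_sum]
  have e1 : ∀ x, (cyl F).D none g1 x = h2 F A θ x + 4 * dvg (IC I) (Cvb14.hE F) (hg F) f x :=
    fun x => by
      have := adj_ed (e := Cvb14.hE F) (c := hc F) (g := hg F) (A := fun k => A (some k))
        (fun _ => hs _ x) (fun k => hN k x) (fun j k => hθ (some j) (some k) x) fun j k => h1 _ _ x
      rw [Pre.D_def, dv_mul contMDiffAt_const (s1 x), ← Pre.D_def, ← Pre.D_def, d1]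
      simp only [Nt_B h1 (fun a b m => hd a b m x), Nt_Ed hA fun k => hθ none (some k),
        inner_add_right, sum_add_distrib, this, real_inner_self_eq_norm_sq, h2, Pre.D_def, dv_const,
        Pi.zero_apply]
      ring
  have k0 : ∀ t, HasDerivAt G (∫ y, g1 (y, t) ∂F.μ) t := fun t => by
    have := der_sl F s0 t
    rw [e0] at this
    simpa only [hG, real_inner_self_eq_norm_sq] using this
  have k1 := funext fun t => (k0 t).deriv
  refine ⟨fun t => (k0 t).differentiableAt, k1 ▸ fun t => (der_sl F s1' t).differentiableAt,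
    fun t => ?_⟩
  have sd : Sm (IC I) (dvg (IC I) (Cvb14.hE F) (hg F) f) := fun x => SA.sum _ fun a _ =>
    ((hfrm F).sD a (sf a x)).add (SA.mul (sm_fst (F.dv_sm a) x) (sf a x))
  rw [k1, (der_sl F s1' t).deriv]
  simp only [e1]
  rw [integral_add (int_sl F (sm_h2 hA hθ) t) ((int_sl F sd t).const_mul 4), integral_const_mul,
    int_dvg F sf, mul_zero, add_zero]

end Crest.Agent.X212.Cvb14
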